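import Vale.Agent.P042.H362.StF
import Vale.Agent.P042.H972.FamP
import Vale.Agent.P042.H972.ThrK
import Vale.Agent.P042.H359.CellsF

set_option autoImplicit false

/-!
P042, power version: the constants. One choice of the parameters of the state and of the families,
from the exponents of the local part (functions of the degree) and from all thresholds.
-/

namespace Vale.Agent.P042.H387

open Polynomial Finset Vale.Agent.P042.SS Vale.Agent.P042.H739 Vale.Agent.P042.H362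
open Vale.Agent.P042.H972 Vale.Agent.P042.H359

/-- the constants of the state at one degree `k` and one content `R`: scale `γ` of the exponents of
the state (the local part takes it much smaller than its own `γ`), capacity `P ^ (1 - G)` of the
families, orders up to `P ^ a1`, constants `Kc * (m j) ^ CK` of the families. The primes go up to
`P ^ C1 k`. -/
structure Cst where
  γ : ℝ
  G : ℝ
  a1 : ℝ
  Kc : ℕ
  CK : ℕ

/-- the conditions on the constants -/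
structure CstOk (c : Cst) : Prop where
  γ0 : 0 < c.γ
  γ1 : c.γ ≤ 1
  a1 : 0 ≤ c.a1
  Kc : 1 ≤ c.Kc

/-- the thresholds of the exponents `γ / 16, γ / 4, γ / 8, γ / 16, γ / 32` -/
theorem thrK_exists (k : ℕ) {γ : ℝ} (h0 : 0 < γ) (h1 : γ ≤ 1) : ∃ K0 : ℕ, ∀ p : ℕ, K0 < p →
    (p : ℝ) ^ (-(γ / 16)) ≤ 1 / 8 ∧
    (p : ℝ) ^ (-(γ / 16)) + (p : ℝ) ^ (-(γ / 4)) * (p : ℝ) ^ (γ / 8) ≤
      (p : ℝ) ^ (-(γ / 32)) / 4 ∧
    2 ≤ (p : ℝ) ^ (γ / 16 / 4) ∧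
    32 * (k : ℝ) ^ 2 * (p : ℝ) ^ (γ / 16) + 1 ≤ (p : ℝ) ^ (γ / 8) ∧
    8 * (p : ℝ) ^ (γ / 16) ≤ (p : ℝ) ^ (-(γ / 4)) * p := by
  obtain ⟨K0, h⟩ := thr_all k (g := γ / 16) (gr := γ / 4) (gc := γ / 8) (b := γ / 16)
    (ga := γ / 32) (by positivity) (by positivity) (by linarith) (by linarith) (by linarith)
    (by linarith)
  refine ⟨K0, fun p hp => ?_⟩
  obtain ⟨a1, a2, a3, a4, a5, a6, a7, a8⟩ := h p hp
  have hp0 : (0 : ℝ) < p := by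
    have : 0 < p := by omega
    exact_mod_cast this
  have u1 : 0 < (p : ℝ) ^ (-(γ / 16)) := Real.rpow_pos_of_pos hp0 _
  have u2 : 0 < (p : ℝ) ^ (-(γ / 4)) * (p : ℝ) ^ (γ / 8) := by positivity
  exact ⟨a3, by linarith, a5, a6, a7⟩

open Classical in
/-- the threshold of the exponents -/
noncomputable def thrK (k : ℕ) (γ : ℝ) : ℕ :=
  if h : 0 < γ ∧ γ ≤ 1 then (thrK_exists k h.1 h.2).choose else 0

theorem thrK_spec (k : ℕ) {γ : ℝ} (h0 : 0 < γ) (h1 : γ ≤ 1) : ∀ p : ℕ, thrK k γ < p →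
    (p : ℝ) ^ (-(γ / 16)) ≤ 1 / 8 ∧
    (p : ℝ) ^ (-(γ / 16)) + (p : ℝ) ^ (-(γ / 4)) * (p : ℝ) ^ (γ / 8) ≤
      (p : ℝ) ^ (-(γ / 32)) / 4 ∧
    2 ≤ (p : ℝ) ^ (γ / 16 / 4) ∧
    32 * (k : ℝ) ^ 2 * (p : ℝ) ^ (γ / 16) + 1 ≤ (p : ℝ) ^ (γ / 8) ∧
    8 * (p : ℝ) ^ (γ / 16) ≤ (p : ℝ) ^ (-(γ / 4)) * p := by
  intro p hp
  have h : 0 < γ ∧ γ ≤ 1 := ⟨h0, h1⟩
  unfold thrK at hp
  rw [dif_pos h] at hp
  exact (thrK_exists k h.1 h.2).choose_spec p hp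

/-- the fraction `D0 / P` -/
noncomputable def kpf (C1 : ℕ → ℝ) (cs : ℕ → ℕ → Cst) (thk : ℕ → ℕ → ℝ → ℝ) (k R : ℕ) (κ : ℝ) :
    ℝ :=
  min (thk k R κ) (min κ (min (1 / k) ((cs k R).γ / 16 / (2560 * C1 k))))

/-- **what the local part may assume about the parameters of the state**: exponents = functions
of `k` and `R`, `kp` at most `thk`, `K0` at least `thr`, `be` at most `thb` (chosen after `K0`) -/
structure Fit (C1 : ℕ → ℝ) (cs : ℕ → ℕ → Cst) (thk : ℕ → ℕ → ℝ → ℝ) (thr : ℕ → ℕ → ℝ → ℕ)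
    (thb : ℕ → ℕ → ℝ → ℕ → ℝ) (k R : ℕ) (κ : ℝ) (q : FP) : Prop where
  ok : FPOk q k κ
  eC1 : q.C1 = C1 k
  g : q.g = (cs k R).γ / 16
  gr : q.gr = (cs k R).γ / 4
  gc : q.gc = (cs k R).γ / 8
  b : q.b = (cs k R).γ / 16
  ga : q.ga = (cs k R).γ / 32
  kp : q.kp = kpf C1 cs thk k R κ
  K0 : thr k R κ ≤ q.K0
  be : q.be ≤ thb k R κ q.K0

/-- the tiny primes are the primes up to `K0f` -/
def K0fun (par : ℕ → ℕ → ℝ → FP) (k R : ℕ) (κ : ℝ) : ℕ := max (max (par k R κ).K0 R) (2 * k)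

/-- the families of the state -/
noncomputable def mkFam (C1 : ℕ → ℝ) (cs : ℕ → ℕ → Cst) (par : ℕ → ℕ → ℝ → FP) (k R : ℕ) (κ P : ℝ) :
    H599.Fam (ℕ × ℕ × ℕ) :=
  famP (cs k R).Kc (cs k R).CK (K0fun par k R κ) (C1 k) (cs k R).a1 0 (cs k R).G
    ((par k R κ).kp / 16) P

/-- **the parameters** -/
noncomputable def mkPar (C1 : ℕ → ℝ) (cs : ℕ → ℕ → Cst) (thk : ℕ → ℕ → ℝ → ℝ) (thr : ℕ → ℕ → ℝ → ℕ)
    (thb : ℕ → ℕ → ℝ → ℕ → ℝ) (k R : ℕ) (κ : ℝ) : FP where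
  C1 := C1 k
  K0 := max (thr k R κ) (thrK k (cs k R).γ)
  g := (cs k R).γ / 16
  gr := (cs k R).γ / 4
  gc := (cs k R).γ / 8
  b := (cs k R).γ / 16
  be := min (thb k R κ (max (thr k R κ) (thrK k (cs k R).γ))) ((cs k R).γ / 32)
  ga := (cs k R).γ / 32
  kp := kpf C1 cs thk k R κ

theorem kpf_pos {C1 : ℕ → ℝ} {cs : ℕ → ℕ → Cst} {thk : ℕ → ℕ → ℝ → ℝ} {k R : ℕ} {κ : ℝ}
    (h1 : 1 ≤ C1 k) (hc : CstOk (cs k R)) (hk : 2 ≤ k) (hκ : 0 < κ) (ht : 0 < thk k R κ) :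
    0 < kpf C1 cs thk k R κ := by
  have h2 := hc.γ0
  have h3 : (0 : ℝ) < k := by exact_mod_cast (by omega : 0 < k)
  unfold kpf
  refine lt_min ht (lt_min hκ (lt_min (by positivity) (by positivity)))

/-- **the parameters fit** -/
theorem mkPar_fit {C1 : ℕ → ℝ} {cs : ℕ → ℕ → Cst} {thk : ℕ → ℕ → ℝ → ℝ} {thr : ℕ → ℕ → ℝ → ℕ}
    {thb : ℕ → ℕ → ℝ → ℕ → ℝ} {k R : ℕ} {κ : ℝ} (h1 : 1 ≤ C1 k) (hc : CstOk (cs k R))
    (hk : 2 ≤ k) (hκ : 0 < κ) (htk : 0 < thk k R κ) (htb : ∀ n, 0 < thb k R κ n) :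
    Fit C1 cs thk thr thb k R κ (mkPar C1 cs thk thr thb k R κ) := by
  have h2 := hc.γ0
  have h3 := hc.γ1
  have hkr : (0 : ℝ) < k := by exact_mod_cast (by omega : 0 < k)
  have hs := thrK_spec k h2 h3
  refine ⟨⟨h1, ?_, ?_, ?_, ?_, ?_, ?_, ?_, ?_, ?_, ?_, ?_, ?_, ?_, ?_, ?_, ?_, ?_, ?_, ?_, ?_⟩,
    rfl, rfl, rfl, rfl, rfl, rfl, rfl, le_max_left _ _, min_le_left _ _⟩
  · show 0 < (cs k R).γ / 16
    positivity
  · show (cs k R).γ / 16 ≤ 1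
    linarith
  · show 0 < (cs k R).γ / 8
    positivity
  · show (cs k R).γ / 16 + (cs k R).γ / 8 ≤ (cs k R).γ / 4
    linarith
  · show (cs k R).γ / 4 ≤ 1
    linarith
  · show 0 < (cs k R).γ / 16
    positivity
  · show (cs k R).γ / 16 ≤ 1
    linarith
  · exact lt_min (htb _) (by positivity)
  · refine (min_le_right _ _).trans ?_
    show (cs k R).γ / 32 ≤ (cs k R).γ / 16 / 2
    linarith
  · show 0 < (cs k R).γ / 32
    positivity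
  · show (cs k R).γ / 32 ≤ 1
    linarith
  · exact kpf_pos h1 hc hk hκ htk
  · exact (min_le_right _ _).trans (min_le_left _ _)
  · exact (min_le_right _ _).trans ((min_le_right _ _).trans (min_le_left _ _))
  · exact (min_le_right _ _).trans ((min_le_right _ _).trans (min_le_right _ _))
  · intro p hp
    exact (hs p (lt_of_le_of_lt (le_max_right _ _) hp)).1
  · intro p hp
    exact (hs p (lt_of_le_of_lt (le_max_right _ _) hp)).2.1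
  · intro p hp
    exact (hs p (lt_of_le_of_lt (le_max_right _ _) hp)).2.2.1
  · intro p hp
    exact (hs p (lt_of_le_of_lt (le_max_right _ _) hp)).2.2.2.1
  · intro p hp
    exact (hs p (lt_of_le_of_lt (le_max_right _ _) hp)).2.2.2.2

/-- **the families fit** -/
theorem mkFam_ok {C1 : ℕ → ℝ} {cs : ℕ → ℕ → Cst} {par : ℕ → ℕ → ℝ → FP} {k R : ℕ} {κ : ℝ}
    (h1 : 1 ≤ C1 k) (hc : CstOk (cs k R)) (hk : 2 ≤ k) (hq : FPOk (par k R κ) k κ)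
    (hC1 : (par k R κ).C1 = C1 k) : FamP (par k R κ) k R (mkFam C1 cs par k R κ) := by
  have hk2 : (2 : ℝ) ≤ k := by exact_mod_cast hk
  have hkp : (par k R κ).kp ≤ 1 := by
    refine hq.kpk.trans ?_
    rw [div_le_one (by linarith)]
    linarith
  have hkp0 := hq.kp0
  obtain ⟨A, P0, hA, hP01, h⟩ := famP_ev (CK := (cs k R).CK) hc.Kc h1 hc.a1 (le_refl (0 : ℝ))
    (cB := (par k R κ).kp / 16) (by positivity) (by linarith) (K0fun par k R κ) (cs k R).G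
  refine ⟨A, P0, hA, fun P hP => ?_⟩
  obtain ⟨u1, h2, h3, h4, h5⟩ := h P hP
  have hP1 : 1 ≤ P := hP01.trans hP
  refine ⟨u1, fun i hi p hp => ?_, h3, fun i hi => ?_⟩
  · obtain ⟨a1, a2, a3⟩ := h2 i hi p hp
    unfold WF
    rw [mem_filter, mem_range, Nat.lt_succ_iff, hC1]
    exact ⟨Nat.le_floor a3, a1, a2⟩
  · have h6 : (0 : ℝ) < ((mkFam C1 cs par k R κ P).B i : ℕ) := by exact_mod_cast u1.hB i hi
    have h7 := Real.log_le_log h6 (h4 i hi)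
    rw [Real.log_exp] at h7
    refine h7.trans (le_of_eq ?_)
    ring

/-- the bound for the moduli of the cells -/
def Q0fun (Q0 : ℕ → ℕ → ℕ → ℕ) (par : ℕ → ℕ → ℝ → FP) (k R : ℕ) (κ : ℝ) : ℕ :=
  Q0 k R (K0fun par k R κ)

/-- the thresholds for `be` which give the cells -/
noncomputable def thbC (Q0 : ℕ → ℕ → ℕ → ℕ) (thb : ℕ → ℕ → ℝ → ℕ → ℝ) (k R : ℕ) (κ : ℝ)
    (n : ℕ) : ℝ :=
  min (thb k R κ n) (1 / (20000 * (|Real.log (Q0 k R (max (max n R) (2 * k)))| + 8)))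

theorem thbC_pos {Q0 : ℕ → ℕ → ℕ → ℕ} {thb : ℕ → ℕ → ℝ → ℕ → ℝ} {k R : ℕ} {κ : ℝ} {n : ℕ}
    (h : 0 < thb k R κ n) : 0 < thbC Q0 thb k R κ n := by
  unfold thbC
  exact lt_min h (by positivity)

/-- a weaker threshold -/
theorem Fit.mono {C1 : ℕ → ℝ} {cs : ℕ → ℕ → Cst} {thk : ℕ → ℕ → ℝ → ℝ} {thr thr' : ℕ → ℕ → ℝ → ℕ}
    {thb thb' : ℕ → ℕ → ℝ → ℕ → ℝ} {k R : ℕ} {κ : ℝ} {q : FP}
    (h : Fit C1 cs thk thr' thb' k R κ q) (h1 : thr k R κ ≤ thr' k R κ)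
    (h2 : ∀ n, thb' k R κ n ≤ thb k R κ n) : Fit C1 cs thk thr thb k R κ q :=
  ⟨h.ok, h.eC1, h.g, h.gr, h.gc, h.b, h.ga, h.kp, h1.trans h.K0, h.be.trans (h2 _)⟩

/-- **ALL CONSTANTS**: from the exponents (functions of `k` and `R`), the thresholds of the local
part and the bound `Q0 k R K0` of the moduli of the cells, parameters and families of the state
which fit, with `K0` tending to infinity as `κ` tends to `0`, and with regular cells. -/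
theorem constants (C1 : ℕ → ℝ) (hC1 : ∀ k, 2 ≤ k → 1 ≤ C1 k) (cs : ℕ → ℕ → Cst)
    (hcs : ∀ k R, 2 ≤ k → CstOk (cs k R)) (thk : ℕ → ℕ → ℝ → ℝ)
    (hthk : ∀ k R κ, 0 < thk k R κ) (thr : ℕ → ℕ → ℝ → ℕ) (thb : ℕ → ℕ → ℝ → ℕ → ℝ)
    (hthb : ∀ k R κ n, 0 < thb k R κ n) (Q0 : ℕ → ℕ → ℕ → ℕ) :
    ∃ par : ℕ → ℕ → ℝ → FP,
      (∀ k R κ, 2 ≤ k → 0 < κ → Fit C1 cs thk thr thb k R κ (par k R κ)) ∧
      (∀ k R κ, 2 ≤ k → 0 < κ → FPOk (par k R κ) k κ) ∧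
      (∀ k R κ, 2 ≤ k → 0 < κ → FamP (par k R κ) k R (mkFam C1 cs par k R κ)) ∧
      (∀ k R K00 : ℕ, ∃ κs : ℝ, 0 < κs ∧ ∀ κ : ℝ, 0 < κ → κ ≤ κs → K00 ≤ K0fun par k R κ) ∧
      CELLSF (K0fun par) (Q0fun Q0 par) (StF par (mkFam C1 cs par)) := by
  obtain ⟨par, hpar⟩ : ∃ par : ℕ → ℕ → ℝ → FP,
    par = mkPar C1 cs thk (fun k R κ => max (thr k R κ) ⌈1 / κ⌉₊) (thbC Q0 thb) := ⟨_, rfl⟩
  have hfit : ∀ k R κ, 2 ≤ k → 0 < κ →
      Fit C1 cs thk (fun k R κ => max (thr k R κ) ⌈1 / κ⌉₊) (thbC Q0 thb) k R κ (par k R κ) := by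
    intro k R κ hk hκ
    rw [hpar]
    exact mkPar_fit (hC1 k hk) (hcs k R hk) hk hκ (hthk k R κ) fun n => thbC_pos (hthb k R κ n)
  refine ⟨par, fun k R κ hk hκ => (hfit k R κ hk hκ).mono (le_max_left _ _) fun n =>
    min_le_left _ _, fun k R κ hk hκ => (hfit k R κ hk hκ).ok, fun k R κ hk hκ =>
    mkFam_ok (hC1 k hk) (hcs k R hk) hk (hfit k R κ hk hκ).ok (hfit k R κ hk hκ).eC1, ?_, ?_⟩
  · intro k R K00
    refine ⟨1 / (K00 + 1), by positivity, fun κ hκ hκ1 => ?_⟩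
    have h1 : K00 ≤ ⌈1 / κ⌉₊ := by
      have h2 : (K00 : ℝ) + 1 ≤ 1 / κ := by
        rw [le_div_iff₀ hκ, mul_comm]
        rw [le_div_iff₀ (by positivity)] at hκ1
        exact hκ1
      have h3 : (K00 : ℝ) ≤ (⌈1 / κ⌉₊ : ℕ) := by linarith [Nat.le_ceil (1 / κ)]
      exact_mod_cast h3
    have h2 : ⌈1 / κ⌉₊ ≤ (par k R κ).K0 := by
      rw [hpar]
      exact (le_max_right (thr k R κ) _).trans (le_max_left _ _)
    exact (h1.trans h2).trans ((le_max_left _ _).trans (le_max_left _ _))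
  · refine cells_StF par (mkFam C1 cs par) (K0fun par) (Q0fun Q0 par) fun k R hk hR =>
      ⟨1, one_pos, fun κ hκ _ => ?_⟩
    have hF := hfit k R κ hk hκ
    refine ⟨le_rfl, hF.ok.kp0, hF.ok.be0.le, ?_⟩
    obtain ⟨L, hL⟩ : ∃ L : ℝ, L = Real.log (Q0fun Q0 par k R κ) := ⟨_, rfl⟩
    have h1 : (par k R κ).be ≤ 1 / (20000 * (|L| + 8)) := by
      rw [hL]
      exact hF.be.trans (min_le_right _ _)
    rw [← hL]
    have h3 : L + 8 ≤ |L| + 8 := by linarith [le_abs_self L]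
    have h4 : (0 : ℝ) < |L| + 8 := by positivity
    calc (par k R κ).be * (L + 8) ≤ (par k R κ).be * (|L| + 8) :=
          mul_le_mul_of_nonneg_left h3 hF.ok.be0.le
      _ ≤ 1 / (20000 * (|L| + 8)) * (|L| + 8) := mul_le_mul_of_nonneg_right h1 h4.le
      _ = 1 / 20000 := by field_simp

end Vale.Agent.P042.H387
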