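import Vale.Agent.P042.H387.Par
import Vale.Agent.P042.H739.LowF

set_option autoImplicit false

/-!
P042, power version: the top composition. Two propositions are left: the state theorem `StateF`
and the local theorem `LocF`.
-/

namespace Vale.Agent.P042.H387

open Polynomial Finset Vale.Agent.P042.SS Vale.Agent.P042.H74 Vale.Agent.P042.H739
open Vale.Agent.P042.H362 Vale.Agent.P042.H359

/-- **the state theorem**, for all parameters and families which are admissible (362) -/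
def StateF : Prop := ∀ (par : ℕ → ℕ → ℝ → FP) (fam : ℕ → ℕ → ℝ → ℝ → H599.Fam (ℕ × ℕ × ℕ)),
  (∀ (k R : ℕ) (κ : ℝ), 2 ≤ k → 1 ≤ R → 0 < κ → κ ≤ 1 / 8 → FPOk (par k R κ) k κ) →
  (∀ (k R : ℕ) (κ : ℝ), 2 ≤ k → 1 ≤ R → 0 < κ → κ ≤ 1 / 8 →
    FamP (par k R κ) k R (fam k R κ)) → STATE6 (StF par fam)

/-- **the local theorem**: there are an exponent `C1 k`, constants (functions of `k` and `R`) and
thresholds such that the local lower bound holds for the state with all parameters which fit -/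
def LocF : Prop := ∃ C1 : ℕ → ℝ, (∀ k, 2 ≤ C1 k) ∧
  ∃ cs : ℕ → ℕ → Cst, (∀ k R, 2 ≤ k → CstOk (cs k R)) ∧
  ∃ thk : ℕ → ℕ → ℝ → ℝ, (∀ k R κ, 0 < thk k R κ) ∧ ∃ thr : ℕ → ℕ → ℝ → ℕ,
  ∃ thb : ℕ → ℕ → ℝ → ℕ → ℝ, (∀ k R κ n, 0 < thb k R κ n) ∧
  ∀ par : ℕ → ℕ → ℝ → FP,
    (∀ (k R : ℕ) (κ : ℝ), 2 ≤ k → 0 < κ → Fit C1 cs thk thr thb k R κ (par k R κ)) →
    HLOC (K0fun par) C1 (StF par (mkFam C1 cs par))

/-- **power saving from the state theorem and the local theorem** -/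
theorem final6_F (hState : StateF) (hLoc : LocF) : Final6 := by
  obtain ⟨C1, hC1, cs, hcs, thk, hthk, thr, thb, hthb, hloc⟩ := hLoc
  obtain ⟨par, h1, h2, h3, h4, h5⟩ := constants C1 (fun k _ => by linarith [hC1 k]) cs hcs thk
    hthk thr thb hthb Q0s
  exact final6_pw (K0f := K0fun par) (Q0f := Q0fun Q0s par) (C1f := C1)
    (St := StF par (mkFam C1 cs par)) hC1
    (hState par (mkFam C1 cs par) (fun k R κ hk _ hκ _ => h2 k R κ hk hκ)
      (fun k R κ hk _ hκ _ => h3 k R κ hk hκ))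
    (fun k R _ _ K00 => h4 k R K00) (fun _ _ _ => le_rfl) h5 (hloc par h1)

end Vale.Agent.P042.H387
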