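import Vale.Agent.P042.H245.ANU
import Vale.Agent.P042.H739.FinalS

set_option autoImplicit false

/-!
P042, power version: the weights with an exponent `C1` depending on the degree, and the transfer
of the circle method and of the lower bound.
-/

namespace Vale.Agent.P042.H387

open Polynomial Finset Vale.Agent.P042.SS Vale.Agent.P042.H74 Vale.Agent.P042.H739
open Vale.Agent.P042.H245

/-- the weighted complete sums; the sieve uses the primes up to `P ^ C1 k`, `k` the degree -/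
noncomputable def GWk (C1 : ℕ → ℝ) : GwTy := fun f P a q => GWf (C1 f.natDegree) f P a q

theorem GWk_eq (C1 : ℕ → ℝ) {f : ℤ[X]} {k : ℕ} (hk : f.natDegree = k) (P : ℝ) (a : ℤ) (q : ℕ) :
    GWk C1 f P a q = GWf (C1 k) f P a q := by
  subst hk
  rfl

theorem anat_k {C1 : ℕ → ℝ} {k : ℕ} {κ1 c1 thQ P : ℝ} (h : ANat (GWf (C1 k)) k κ1 c1 thQ P) :
    ANat (GWk C1) k κ1 c1 thQ P := by
  intro R f N' H h0 z G1 G2 hR hRP hdeg hlead hcont hcoef hlo hhi h8 h16 hh0 hh hz hzN hs1 hs2 hfree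
  simp only [GWk_eq C1 hdeg]
  exact h R f N' H h0 z G1 G2 hR hRP hdeg hlead hcont hcoef hlo hhi h8 h16 hh0 hh hz hzN hs1 hs2
    hfree

/-- **the circle method** -/
theorem anuK (C1 : ℕ → ℝ) (hC1 : ∀ k, 2 ≤ k → 1 ≤ C1 k) : ANU (GWk C1) := by
  intro k hk
  obtain ⟨th0, hth0, h⟩ := anu (C1 k) (hC1 k hk) k hk
  refine ⟨th0, hth0, fun thQ h1 h2 => ?_⟩
  obtain ⟨c1, κ1, hc1, hκ1, P0, h3⟩ := h thQ h1 h2
  exact ⟨c1, κ1, hc1, hκ1, P0, fun P hP => anat_k (h3 P hP)⟩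

/-- **the lower bound at one state** -/
theorem lowat_k {C1 : ℕ → ℝ} {f : ℤ[X]} {k : ℕ} (hk : f.natDegree = k) {κ0 thQ P : ℝ} {N' : ℕ}
    {G : ℤ → ℝ} (h : LOWat (GWf (C1 k)) κ0 thQ P f N' G) : LOWat (GWk C1) κ0 thQ P f N' G := by
  obtain ⟨q0, z0, H, h0, z, G1, G2, hq0, hq0P, hz0, h8, h16, hh0, hh, hz, hzN, hG1G, hG2G, hs1,
    hs2, hsq1, hsq2, hlow⟩ := h
  refine ⟨q0, z0, H, h0, z, G1, G2, hq0, hq0P, hz0, h8, h16, hh0, hh, hz, hzN, hG1G, hG2G, hs1,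
    hs2, hsq1, hsq2, ?_⟩
  have hg : (f.comp (C (z0 : ℤ) + C (q0 : ℤ) * X)).natDegree = k := by
    rw [comp_natDegree f z0 q0 hq0, hk]
  simp only [GWk_eq C1 hg]
  exact hlow

/-- the second half at one degree -/
def LOWERFk (k : ℕ) (GW : GwTy) (St : StTy) : Prop :=
  ∀ R : ℕ, 1 ≤ R → ∀ thQ κ0 : ℝ, 0 < thQ → thQ ≤ 1 / 16 → 0 < κ0 →
  ∃ κ : ℝ, 0 < κ ∧ κ ≤ κ0 ∧ ∃ P0 : ℝ, ∀ P : ℝ, P0 ≤ P →
  ∀ (f : ℤ[X]) (N' : ℕ) (G : ℤ → ℝ), f.natDegree = k → 0 < f.leadingCoeff →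
    (∀ g : ℤ, (∀ j : ℕ, 1 ≤ j → g ∣ f.coeff j) → g ∣ (R : ℤ)) →
    (∀ j : ℕ, |(f.coeff j : ℝ)| ≤ Real.exp (2 * k * κ * P)) →
    Base6 f κ P N' G → St k R f κ P N' G → LOWat GW κ0 thQ P f N' G

/-- **the second half, degree by degree** -/
theorem lowerF_k {C1 : ℕ → ℝ} {St : StTy} (h : ∀ k, 2 ≤ k → LOWERFk k (GWf (C1 k)) St) :
    LOWERF (GWk C1) St := by
  intro k R hk hR thQ κ0 h1 h2 h3
  obtain ⟨κ, hκ, hκ0, P0, h4⟩ := h k hk R hR thQ κ0 h1 h2 h3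
  refine ⟨κ, hκ, hκ0, P0, fun P hP f N' G hfk hlead hcont hcoef hbase hst => ?_⟩
  exact lowat_k hfk (h4 P hP f N' G hfk hlead hcont hcoef hbase hst)

/-- the second half at one degree from the second half with one exponent -/
theorem lowerFk_of {GW : GwTy} {St : StTy} (h : LOWERF GW St) {k : ℕ} (hk : 2 ≤ k) :
    LOWERFk k GW St := fun R hR => h k R hk hR

end Vale.Agent.P042.H387
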