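import Vale.Agent.P042.H944.SeamNum

set_option autoImplicit false

/-!
P042, power version: the numbers of the integer side (`LOWERF` from the local lower bound).
-/

namespace Vale.Agent.P042.H387

open Finset

/-! ### eventual inequalities -/

theorem ev_const (c e : ℝ) (he : 0 < e) : ∀ᶠ P : ℝ in Filter.atTop, c ≤ e * P := by
  filter_upwards [Filter.eventually_ge_atTop (c / e)] with P hP
  rw [div_le_iff₀ he] at hP
  linarith

theorem ev_rpow (s e : ℝ) (hs : 0 < s) (he : 0 < e) :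
    ∀ᶠ P : ℝ in Filter.atTop, P ^ (1 - s) ≤ e * P := by
  have h1 := (tendsto_rpow_neg_atTop hs).eventually (eventually_lt_nhds he)
  filter_upwards [h1, Filter.eventually_gt_atTop 0] with P h2 h3
  rw [Real.rpow_sub h3, Real.rpow_one, div_eq_mul_inv, ← Real.rpow_neg h3.le, mul_comm]
  exact mul_le_mul_of_nonneg_right h2.le h3.le

theorem ev_log_rpow (a : ℕ) (C s : ℝ) (hs : 0 < s) :
    ∀ᶠ P : ℝ in Filter.atTop, C * Real.log P ^ a ≤ P ^ s := by
  have h1 := isLittleO_log_rpow_atTop (r := s / (a + 1)) (by positivity)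
  have h2 := h1.def (c := 1) zero_lt_one
  have h3 : ∀ᶠ P : ℝ in Filter.atTop, |C| ≤ P ^ (s / (a + 1)) :=
    (tendsto_rpow_atTop (by positivity)).eventually_ge_atTop _
  filter_upwards [h2, h3, Filter.eventually_ge_atTop 1] with P h4 h5 h6
  have h0 : (0 : ℝ) ≤ P := by linarith
  have hl : 0 ≤ Real.log P := Real.log_nonneg h6
  rw [Real.norm_eq_abs, Real.norm_eq_abs, abs_of_nonneg hl,
    abs_of_nonneg (Real.rpow_nonneg h0 _), one_mul] at h4
  have h7 : P ^ s = P ^ (s / (a + 1)) * (P ^ (s / (a + 1))) ^ a := by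
    rw [← pow_succ', ← Real.rpow_natCast, ← Real.rpow_mul h0]
    congr 1
    push_cast
    field_simp
  rw [h7]
  have h8 : C * Real.log P ^ a ≤ |C| * Real.log P ^ a :=
    mul_le_mul_of_nonneg_right (le_abs_self _) (pow_nonneg hl _)
  refine h8.trans ?_
  exact mul_le_mul h5 (pow_le_pow_left₀ hl h4 a) (pow_nonneg hl _) (Real.rpow_nonneg h0 _)

theorem ev_log (e : ℝ) (he : 0 < e) : ∀ᶠ P : ℝ in Filter.atTop, Real.log P ≤ e * P := by
  have h2 := (Real.isLittleO_log_id_atTop).def he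
  filter_upwards [h2, Filter.eventually_ge_atTop 1] with P h4 h6
  have hl : 0 ≤ Real.log P := Real.log_nonneg h6
  rw [Real.norm_eq_abs, Real.norm_eq_abs, abs_of_nonneg hl] at h4
  rwa [id, abs_of_nonneg (by linarith : (0 : ℝ) ≤ P)] at h4

/-! ### the windows -/

/-- the windows inside `[1, N']` -/
theorem win_num {N' : ℕ} (h : 110 ≤ N') :
    8 * (N' / 10 + N' / 100) ≤ N' ∧ N' ≤ 16 * (N' / 10) ∧ 1 ≤ N' / 100 ∧
      2 * (N' / 100) ≤ N' / 10 ∧ (0 : ℤ) + 3 * ((N' / 10 : ℕ) : ℤ) + 2 * ((N' / 100 : ℕ) : ℤ) ≤ N' ∧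
      N' ≤ 1000 * (N' / 100) ∧
      ((N' / 100 : ℕ) : ℤ) ≤ 3 * ((N' / 10 : ℕ) : ℤ) + ((N' / 100 : ℕ) : ℤ) ∧
      3 * ((N' / 10 : ℕ) : ℤ) + ((N' / 100 : ℕ) : ℤ) + ((N' / 100 : ℕ) : ℤ) +
        ((N' / 100 : ℕ) : ℤ) ≤ N' := by
  refine ⟨by omega, by omega, by omega, by omega, by omega, by omega, by omega, by omega⟩

/-! ### the sum of the rates -/

/-- the sum of all rates over the primes up to `P ^ (2 - g)` -/
theorem sum_rates (g C : ℝ) (a : ℕ) (hg : 0 < g) (hC : 0 ≤ C) : ∃ P0 : ℝ, ∀ P : ℝ, P0 ≤ P →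
    ∀ {ι : Type} [Fintype ι] (prm : ι → ℕ), Function.Injective prm → (∀ i, 1 ≤ prm i) →
      (∀ i, (prm i : ℝ) ≤ P ^ (2 - g)) →
      ∑ i, C * Real.log P ^ a / Real.sqrt (prm i) ≤ P ^ (1 - g / 3) := by
  have key := ev_log_rpow a (2 * C) (g / 6) (by positivity)
  have key2 := key.and (Filter.eventually_ge_atTop (1 : ℝ))
  obtain ⟨P0, hP0⟩ := Filter.eventually_atTop.1 key2
  refine ⟨P0, fun P hP ι _ prm hinj hpos hle => ?_⟩
  obtain ⟨h1, h2⟩ := hP0 P hP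
  have hP0 : 0 < P := by linarith
  have h3 := H944.sum_sqrt_le prm hinj hpos (P ^ (1 - g / 2)) (by positivity) (fun i => by
    rw [← Real.rpow_natCast, ← Real.rpow_mul hP0.le]
    refine (hle i).trans (le_of_eq ?_)
    congr 1
    push_cast
    ring)
  have h4 : ∑ i, C * Real.log P ^ a / Real.sqrt (prm i) =
      C * Real.log P ^ a * ∑ i, 1 / Real.sqrt (prm i) := by
    rw [mul_sum]
    refine sum_congr rfl fun i _ => ?_
    rw [mul_one_div]
  rw [h4]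
  have hl : 0 ≤ Real.log P := Real.log_nonneg h2
  calc C * Real.log P ^ a * ∑ i, 1 / Real.sqrt (prm i)
      ≤ C * Real.log P ^ a * (2 * P ^ (1 - g / 2)) :=
        mul_le_mul_of_nonneg_left h3 (by positivity)
    _ = (2 * C * Real.log P ^ a) * P ^ (1 - g / 2) := by ring
    _ ≤ P ^ (g / 6) * P ^ (1 - g / 2) := mul_le_mul_of_nonneg_right h1 (by positivity)
    _ = P ^ (1 - g / 3) := by
        rw [← Real.rpow_add hP0]
        congr 1
        ring

/-! ### the choices -/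

/-- the truncation of the number of primes -/
noncomputable def m0F (thQ P : ℝ) : ℕ := ⌊thQ / 16 * P / Real.log P⌋₊
/-- the bound for the second part of the modulus -/
noncomputable def M0F (thQ P : ℝ) : ℕ := ⌊Real.exp (thQ * P / 2)⌋₊
/-- the bound for the first part of the modulus -/
noncomputable def Y0F (thQ P : ℝ) : ℕ := ⌊Real.exp (thQ * P / 8)⌋₊

/-- the conditions on `P` -/
structure CondL (c g thQ κ κ0 : ℝ) (qB : ℕ) (P : ℝ) : Prop where
  P3 : 3 ≤ P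
  a1 : Real.log (16 * (2000 * qB) ^ 2) ≤ thQ * g / 1024 * P
  a2 : P ^ (1 - g / 12) ≤ thQ * g / 1024 * P
  a3 : Real.log P ≤ thQ * g / 1024 * P
  b1 : Real.log (16 * (2000 * qB) ^ 2) ≤ c * thQ / 64 * P
  b2 : P ^ (1 - g / 3) ≤ c * thQ / 64 * P
  b3 : Real.log 2 ≤ thQ / 4 * P
  c1 : Real.log (2 * (2000 * qB) ^ 2) ≤ 2 * κ * P
  d1 : Real.log 2 ≤ κ * P
  d2 : P ^ (1 - g / 3) ≤ κ / 2 * P
  e1 : Real.log qB ≤ 3 / 8 * thQ * P
  e2 : Real.log qB ≤ κ0 * P
  f1 : Real.log 110 ≤ 1 / 4 * P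

theorem condL_ev (c g thQ κ κ0 : ℝ) (qB : ℕ) (hc : 0 < c) (hg : 0 < g) (ht : 0 < thQ)
    (hκ : 0 < κ) (hκ0 : 0 < κ0) : ∃ P0 : ℝ, ∀ P : ℝ, P0 ≤ P → CondL c g thQ κ κ0 qB P := by
  have key : ∀ᶠ P : ℝ in Filter.atTop, CondL c g thQ κ κ0 qB P := by
    filter_upwards [Filter.eventually_ge_atTop 3,
      ev_const (Real.log (16 * (2000 * qB) ^ 2)) (thQ * g / 1024) (by positivity),
      ev_rpow (g / 12) (thQ * g / 1024) (by positivity) (by positivity),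
      ev_log (thQ * g / 1024) (by positivity),
      ev_const (Real.log (16 * (2000 * qB) ^ 2)) (c * thQ / 64) (by positivity),
      ev_rpow (g / 3) (c * thQ / 64) (by positivity) (by positivity),
      ev_const (Real.log 2) (thQ / 4) (by positivity),
      ev_const (Real.log (2 * (2000 * qB) ^ 2)) (2 * κ) (by positivity),
      ev_const (Real.log 2) κ hκ,
      ev_rpow (g / 3) (κ / 2) (by positivity) (by positivity),
      ev_const (Real.log qB) (3 / 8 * thQ) (by positivity),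
      ev_const (Real.log qB) κ0 hκ0,
      ev_const (Real.log 110) (1 / 4) (by norm_num)] with P h1 h2 h3 h4 h5 h6 h7 h8 h9 h10 h11 h12
        h13
    exact ⟨h1, h2, h3, h4, h5, h6, h7, h8, h9, h10, h11, h12, h13⟩
  exact Filter.eventually_atTop.1 key

/-- **the numbers of the integer side** -/
structure NumL (c g thQ κ κ0 P : ℝ) (N' h0 q1 qn : ℕ) : Prop where
  P3 : 3 ≤ P
  N110 : 110 ≤ N'
  Q1 : 1 ≤ ⌊Real.exp (thQ * P)⌋₊
  QN : ⌊Real.exp (thQ * P)⌋₊ ^ 4 ≤ N'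
  M01 : 1 ≤ M0F thQ P
  q1le : (q1 : ℝ) ≤ Real.exp (κ0 * P)
  R1 : 1 ≤ P ^ (g / 4)
  d0 : 0 ≤ (M0F thQ P : ℝ) ^ (-c)
  hm : ∀ {ι : Type} (prm : ι → ℕ), (∀ i, (prm i : ℝ) ≤ P ^ (2 - g)) →
    ∀ B : Finset ι, B.card ≤ m0F thQ P → ∏ i ∈ B, prm i ≤ Y0F thQ P
  YN : Y0F thQ P ≤ N'
  hQ : Y0F thQ P * M0F thQ P * qn ≤ ⌊Real.exp (thQ * P)⌋₊
  herr : ∀ S M1 M2 : ℝ, S ≤ P ^ (1 - g / 3) → (h0 : ℝ) / 2 ≤ qn * M1 → (h0 : ℝ) / 2 ≤ qn * M2 →
    4 * (N' : ℝ) ^ 2 * Real.exp (κ * P) ^ 2 *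
      ((P ^ (g / 4))⁻¹ ^ m0F thQ P * Real.exp (P ^ (g / 4) * S) +
        (M0F thQ P : ℝ) ^ (-c) * Real.exp S) ≤ Real.exp (-(κ * P)) * (M1 * M2) / 2
  hlow : ∀ D M1 M2 : ℝ, Real.exp (-(κ * P)) ≤ D → (h0 : ℝ) / 2 ≤ qn * M1 →
    (h0 : ℝ) / 2 ≤ qn * M2 →
    Real.exp (-(κ0 * P)) * (N' : ℝ) ^ 2 ≤ D * (qn * (Real.exp (-(κ * P)) * (M1 * M2) / 2))
  hsq : ∀ Sb : ℝ, Sb ≤ P ^ (1 - g / 3) →
    Real.exp (κ * P) ^ 2 * (2 * N' * Real.exp (2 * Sb)) ≤ Real.exp (κ0 * P) * N'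

section
variable {c g thQ κ κ0 P : ℝ} {qB N' h0 q1 qn : ℕ}

theorem mass_mul (hN : (N' : ℝ) ≤ 1000 * h0) (hqn : 1 ≤ qn) (hqB : qn ≤ qB) {M1 M2 : ℝ}
    (h1 : (h0 : ℝ) / 2 ≤ qn * M1) (h2 : (h0 : ℝ) / 2 ≤ qn * M2) :
    (N' : ℝ) ^ 2 / (2000 * qB) ^ 2 ≤ M1 * M2 := by
  have hq : (0 : ℝ) < qn := by exact_mod_cast hqn
  have hqB' : (qn : ℝ) ≤ qB := by exact_mod_cast hqB
  have hB : (0 : ℝ) < qB := lt_of_lt_of_le hq hqB'
  have key : ∀ M : ℝ, (h0 : ℝ) / 2 ≤ qn * M → (N' : ℝ) / (2000 * qB) ≤ M := by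
    intro M hM
    have hM0 : 0 ≤ M := by
      by_contra hc
      have : qn * M < 0 := mul_neg_of_pos_of_neg hq (not_le.1 hc)
      have h3 : (0 : ℝ) ≤ h0 := Nat.cast_nonneg _
      linarith
    rw [div_le_iff₀ (by positivity)]
    have h3 : (qn : ℝ) * M ≤ qB * M := mul_le_mul_of_nonneg_right hqB' hM0
    linarith
  rw [← div_pow, sq]
  have a1 := key M1 h1
  have a2 := key M2 h2
  exact mul_le_mul a1 a2 (by positivity) (le_trans (by positivity) a1)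

theorem rank_exp (hP : 3 ≤ P) (hg : 0 < g) :
    (P ^ (g / 4))⁻¹ ^ m0F thQ P ≤
      Real.exp (-(thQ * g / 64 * P - g / 4 * Real.log P)) := by
  have hP0 : 0 < P := by linarith
  have hl : 0 < Real.log P := Real.log_pos (by linarith)
  have h1 : (P ^ (g / 4))⁻¹ = Real.exp (-(g / 4 * Real.log P)) := by
    rw [Real.exp_neg, Real.rpow_def_of_pos hP0, mul_comm]
  rw [h1, ← Real.exp_nat_mul, Real.exp_le_exp]
  have h2 : thQ / 16 * P / Real.log P ≤ m0F thQ P + 1 := (Nat.lt_floor_add_one _).le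
  rw [div_le_iff₀ hl] at h2
  have h3 : thQ * g / 64 * P = g / 4 * (thQ / 16 * P) := by ring
  rw [h3]
  have h4 : g / 4 * (thQ / 16 * P) ≤ g / 4 * ((m0F thQ P + 1) * Real.log P) :=
    mul_le_mul_of_nonneg_left h2 (by positivity)
  linarith

theorem M0_ge (hC : CondL c g thQ κ κ0 qB P) :
    Real.exp (thQ * P / 4) ≤ M0F thQ P := by
  have hP0 : 0 < P := by linarith [hC.P3]
  have h1 : Real.exp (thQ * P / 2) ≤ M0F thQ P + 1 := (Nat.lt_floor_add_one _).le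
  have h2 : (2 : ℝ) ≤ Real.exp (thQ * P / 4) := by
    have : (2 : ℝ) = Real.exp (Real.log 2) := (Real.exp_log (by norm_num)).symm
    rw [this, Real.exp_le_exp]
    have := hC.b3
    linarith
  have h3 : Real.exp (thQ * P / 2) = Real.exp (thQ * P / 4) * Real.exp (thQ * P / 4) := by
    rw [← Real.exp_add]
    congr 1
    ring
  rw [h3] at h1
  nlinarith

theorem err1 (hg : 0 < g) (hg1 : g ≤ 1) (ht : 0 < thQ) (hκ1 : κ ≤ thQ * g / 512)
    (hC : CondL c g thQ κ κ0 qB P) {S : ℝ} (hS : S ≤ P ^ (1 - g / 3)) {K : ℝ} (hK0 : 0 < K)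
    (hK : K = 16 * (2000 * (qB : ℝ)) ^ 2) :
    Real.exp (2 * κ * P) *
        ((P ^ (g / 4))⁻¹ ^ m0F thQ P * Real.exp (P ^ (g / 4) * S)) ≤
        Real.exp (-(κ * P)) * (1 / K) := by
  have hP3 := hC.P3
  have hP0 : 0 < P := by linarith
  have hl : 0 < Real.log P := Real.log_pos (by linarith)
  have hKe : K = Real.exp (Real.log K) := (Real.exp_log hK0).symm
  have hRS : P ^ (g / 4) * S ≤ P ^ (1 - g / 12) := by
    calc P ^ (g / 4) * S ≤ P ^ (g / 4) * P ^ (1 - g / 3) :=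
          mul_le_mul_of_nonneg_left hS (Real.rpow_nonneg hP0.le _)
      _ = P ^ (1 - g / 12) := by
          rw [← Real.rpow_add hP0]
          congr 1
          ring
  have hR := rank_exp (thQ := thQ) hP3 hg
  calc Real.exp (2 * κ * P) *
      ((P ^ (g / 4))⁻¹ ^ m0F thQ P * Real.exp (P ^ (g / 4) * S))
      ≤ Real.exp (2 * κ * P) *
        (Real.exp (-(thQ * g / 64 * P - g / 4 * Real.log P)) *
          Real.exp (P ^ (1 - g / 12))) := by
        gcongr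
    _ = Real.exp (2 * κ * P + (-(thQ * g / 64 * P - g / 4 * Real.log P) +
        P ^ (1 - g / 12))) := by rw [Real.exp_add, Real.exp_add]
    _ ≤ Real.exp (-(κ * P) + -Real.log K) := by
        rw [Real.exp_le_exp]
        have e1 := hC.a1
        have e2 := hC.a2
        have e3 := hC.a3
        rw [← hK] at e1
        have e4 : κ * P ≤ thQ * g / 512 * P := mul_le_mul_of_nonneg_right hκ1 hP0.le
        have e6 : g / 4 * Real.log P ≤ 1 * Real.log P :=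
          mul_le_mul_of_nonneg_right (by linarith) hl.le
        obtain ⟨u, hu⟩ : ∃ u : ℝ, u = thQ * g * P := ⟨_, rfl⟩
        have hu0 : 0 < u := by rw [hu]; positivity
        have u1 : thQ * g / 1024 * P = u / 1024 := by rw [hu]; ring
        have u2 : thQ * g / 512 * P = u / 512 := by rw [hu]; ring
        have u3 : thQ * g / 64 * P = u / 64 := by rw [hu]; ring
        rw [u1] at e1 e2 e3
        rw [u2] at e4
        rw [u3]
        linarith
    _ = Real.exp (-(κ * P)) * (1 / K) := by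
        rw [Real.exp_add, Real.exp_neg (Real.log K), ← hKe, one_div]

theorem err2 (hc : 0 < c) (ht : 0 < thQ) (hκ2 : κ ≤ c * thQ / 16)
    (hC : CondL c g thQ κ κ0 qB P) {S : ℝ} (hS : S ≤ P ^ (1 - g / 3)) {K : ℝ} (hK0 : 0 < K)
    (hK : K = 16 * (2000 * (qB : ℝ)) ^ 2) :
    Real.exp (2 * κ * P) * ((M0F thQ P : ℝ) ^ (-c) * Real.exp S) ≤
        Real.exp (-(κ * P)) * (1 / K) := by
  have hP3 := hC.P3
  have hP0 : 0 < P := by linarith
  have hKe : K = Real.exp (Real.log K) := (Real.exp_log hK0).symm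
  have hM := M0_ge hC
  have hd : (M0F thQ P : ℝ) ^ (-c) ≤ Real.exp (-(c * thQ / 4 * P)) := by
    calc (M0F thQ P : ℝ) ^ (-c) ≤ Real.exp (thQ * P / 4) ^ (-c) :=
          Real.rpow_le_rpow_of_nonpos (Real.exp_pos _) hM (by linarith)
      _ = Real.exp (-(c * thQ / 4 * P)) := by
          rw [← Real.exp_mul]
          congr 1
          ring
  calc Real.exp (2 * κ * P) * ((M0F thQ P : ℝ) ^ (-c) * Real.exp S)
      ≤ Real.exp (2 * κ * P) *
        (Real.exp (-(c * thQ / 4 * P)) * Real.exp (P ^ (1 - g / 3))) := by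
        gcongr
    _ = Real.exp (2 * κ * P + (-(c * thQ / 4 * P) + P ^ (1 - g / 3))) := by
        rw [Real.exp_add, Real.exp_add]
    _ ≤ Real.exp (-(κ * P) + -Real.log K) := by
        rw [Real.exp_le_exp]
        have e1 := hC.b1
        have e2 := hC.b2
        rw [← hK] at e1
        have e4 : κ * P ≤ c * thQ / 16 * P := mul_le_mul_of_nonneg_right hκ2 hP0.le
        obtain ⟨u, hu⟩ : ∃ u : ℝ, u = c * thQ * P := ⟨_, rfl⟩
        have hu0 : 0 < u := by rw [hu]; positivity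
        have u1 : c * thQ / 64 * P = u / 64 := by rw [hu]; ring
        have u2 : c * thQ / 16 * P = u / 16 := by rw [hu]; ring
        have u3 : c * thQ / 4 * P = u / 4 := by rw [hu]; ring
        rw [u1] at e1 e2
        rw [u2] at e4
        rw [u3]
        linarith
    _ = Real.exp (-(κ * P)) * (1 / K) := by
        rw [Real.exp_add, Real.exp_neg (Real.log K), ← hKe, one_div]

theorem herr_aux (hc : 0 < c) (hg : 0 < g) (hg1 : g ≤ 1) (ht : 0 < thQ)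
    (hκ1 : κ ≤ thQ * g / 512) (hκ2 : κ ≤ c * thQ / 16)
    (hC : CondL c g thQ κ κ0 qB P) (hNr : (N' : ℝ) ≤ 1000 * h0) (hqn : 1 ≤ qn)
    (hqnB : qn ≤ qB) (S M1 M2 : ℝ) (hS : S ≤ P ^ (1 - g / 3)) (h1 : (h0 : ℝ) / 2 ≤ qn * M1)
    (h2 : (h0 : ℝ) / 2 ≤ qn * M2) :
    4 * (N' : ℝ) ^ 2 * Real.exp (κ * P) ^ 2 *
      ((P ^ (g / 4))⁻¹ ^ m0F thQ P * Real.exp (P ^ (g / 4) * S) +
        (M0F thQ P : ℝ) ^ (-c) * Real.exp S) ≤ Real.exp (-(κ * P)) * (M1 * M2) / 2 := by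
  have hmm := mass_mul hNr hqn hqnB h1 h2
  have hqB1 : 1 ≤ qB := hqn.trans hqnB
  have hqBr : (1 : ℝ) ≤ qB := by exact_mod_cast hqB1
  obtain ⟨K, hK⟩ : ∃ x : ℝ, x = 16 * (2000 * (qB : ℝ)) ^ 2 := ⟨_, rfl⟩
  have hK0 : 0 < K := by rw [hK]; positivity
  have hlow : Real.exp (-(κ * P)) * ((N' : ℝ) ^ 2 * (8 / K)) ≤
      Real.exp (-(κ * P)) * (M1 * M2) / 2 := by
    rw [mul_div_assoc]
    refine mul_le_mul_of_nonneg_left ?_ (Real.exp_pos _).le
    have : (N' : ℝ) ^ 2 * (8 / K) = (N' : ℝ) ^ 2 / (2000 * qB) ^ 2 / 2 := by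
      rw [hK]
      field_simp
      ring
    rw [this]
    linarith
  refine le_trans ?_ hlow
  have hA : Real.exp (κ * P) ^ 2 = Real.exp (2 * κ * P) := by
    rw [← Real.exp_nat_mul]
    congr 1
    push_cast
    ring
  rw [hA]
  have t1 := err1 hg hg1 ht hκ1 hC hS hK0 hK
  have t2 := err2 hc ht hκ2 hC hS hK0 hK
  calc 4 * (N' : ℝ) ^ 2 * Real.exp (2 * κ * P) *
        ((P ^ (g / 4))⁻¹ ^ m0F thQ P * Real.exp (P ^ (g / 4) * S) +
          (M0F thQ P : ℝ) ^ (-c) * Real.exp S)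
      = 4 * (N' : ℝ) ^ 2 * (Real.exp (2 * κ * P) *
        ((P ^ (g / 4))⁻¹ ^ m0F thQ P * Real.exp (P ^ (g / 4) * S)) +
          Real.exp (2 * κ * P) * ((M0F thQ P : ℝ) ^ (-c) * Real.exp S)) := by ring
    _ ≤ 4 * (N' : ℝ) ^ 2 * (Real.exp (-(κ * P)) * (1 / K) +
        Real.exp (-(κ * P)) * (1 / K)) :=
        mul_le_mul_of_nonneg_left (add_le_add t1 t2) (by positivity)
    _ = Real.exp (-(κ * P)) * ((N' : ℝ) ^ 2 * (8 / K)) := by ring

theorem hlow_aux (hκ0 : 4 * κ ≤ κ0)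
    (hC : CondL c g thQ κ κ0 qB P) (hNr : (N' : ℝ) ≤ 1000 * h0) (hqn : 1 ≤ qn)
    (hqnB : qn ≤ qB) (D M1 M2 : ℝ) (hD : Real.exp (-(κ * P)) ≤ D)
    (h1 : (h0 : ℝ) / 2 ≤ qn * M1) (h2 : (h0 : ℝ) / 2 ≤ qn * M2) :
    Real.exp (-(κ0 * P)) * (N' : ℝ) ^ 2 ≤
      D * (qn * (Real.exp (-(κ * P)) * (M1 * M2) / 2)) := by
  have hP3 := hC.P3
  have hP0 : 0 < P := by linarith
  have hmm := mass_mul hNr hqn hqnB h1 h2
  have hqB1 : 1 ≤ qB := hqn.trans hqnB
  have hqBr : (1 : ℝ) ≤ qB := by exact_mod_cast hqB1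
  have hqnr : (1 : ℝ) ≤ qn := by exact_mod_cast hqn
  obtain ⟨K, hK⟩ : ∃ x : ℝ, x = 2 * (2000 * (qB : ℝ)) ^ 2 := ⟨_, rfl⟩
  have hK0 : 0 < K := by rw [hK]; positivity
  have hKe : K = Real.exp (Real.log K) := (Real.exp_log hK0).symm
  have hD0 : 0 < D := lt_of_lt_of_le (Real.exp_pos _) hD
  have h3 : (N' : ℝ) ^ 2 / (2000 * qB) ^ 2 / 2 = (N' : ℝ) ^ 2 * (1 / K) := by
    rw [hK]
    field_simp
  have h4 : 0 ≤ M1 * M2 := le_trans (by positivity) hmm
  calc Real.exp (-(κ0 * P)) * (N' : ℝ) ^ 2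
      ≤ (Real.exp (-(κ * P)) * Real.exp (-(κ * P)) * (1 / K)) * (N' : ℝ) ^ 2 := by
        refine mul_le_mul_of_nonneg_right ?_ (sq_nonneg _)
        have e1 : 1 / K = Real.exp (-Real.log K) := by rw [Real.exp_neg, ← hKe, one_div]
        rw [e1, ← Real.exp_add, ← Real.exp_add, Real.exp_le_exp]
        have e2 := hC.c1
        rw [← hK] at e2
        have e3 : 4 * κ * P ≤ κ0 * P := mul_le_mul_of_nonneg_right hκ0 hP0.le
        linarith
    _ = Real.exp (-(κ * P)) * (Real.exp (-(κ * P)) * ((N' : ℝ) ^ 2 * (1 / K))) := by ring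
    _ ≤ Real.exp (-(κ * P)) * (Real.exp (-(κ * P)) * (M1 * M2) / 2) := by
        refine mul_le_mul_of_nonneg_left ?_ (Real.exp_pos _).le
        rw [mul_div_assoc]
        refine mul_le_mul_of_nonneg_left ?_ (Real.exp_pos _).le
        rw [← h3]
        linarith
    _ ≤ D * (qn * (Real.exp (-(κ * P)) * (M1 * M2) / 2)) := by
        refine mul_le_mul hD ?_ (by positivity) hD0.le
        exact le_mul_of_one_le_left (by positivity) hqnr

theorem hsq_aux (hκ0 : 4 * κ ≤ κ0) (hC : CondL c g thQ κ κ0 qB P) (Sb : ℝ)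
    (hSb : Sb ≤ P ^ (1 - g / 3)) :
    Real.exp (κ * P) ^ 2 * (2 * N' * Real.exp (2 * Sb)) ≤ Real.exp (κ0 * P) * N' := by
  have hP3 := hC.P3
  have hP0 : 0 < P := by linarith
  calc Real.exp (κ * P) ^ 2 * (2 * N' * Real.exp (2 * Sb))
      ≤ Real.exp (κ * P) ^ 2 * (Real.exp (κ * P) * N' * Real.exp (2 * P ^ (1 - g / 3))) := by
        have h2 : (2 : ℝ) ≤ Real.exp (κ * P) := by
          have : (2 : ℝ) = Real.exp (Real.log 2) := (Real.exp_log (by norm_num)).symm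
          rw [this, Real.exp_le_exp]
          exact hC.d1
        gcongr
    _ ≤ Real.exp (κ * P) ^ 2 * (Real.exp (κ * P) * N' * Real.exp (κ * P)) := by
        have h3 : Real.exp (2 * P ^ (1 - g / 3)) ≤ Real.exp (κ * P) := by
          rw [Real.exp_le_exp]
          have := hC.d2
          linarith
        gcongr
    _ = Real.exp (4 * κ * P) * N' := by
        have : Real.exp (4 * κ * P) = Real.exp (κ * P) ^ 4 := by
          rw [← Real.exp_nat_mul]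
          congr 1
          push_cast
          ring
        rw [this]
        ring
    _ ≤ Real.exp (κ0 * P) * N' := by
        refine mul_le_mul_of_nonneg_right ?_ (Nat.cast_nonneg _)
        rw [Real.exp_le_exp]
        exact mul_le_mul_of_nonneg_right hκ0 hP0.le

theorem hm_aux (hC : CondL c g thQ κ κ0 qB P) (hg : 0 < g) (ht : 0 < thQ) {ι : Type}
    (prm : ι → ℕ) (hprm : ∀ i, (prm i : ℝ) ≤ P ^ (2 - g)) (B : Finset ι)
    (hB : B.card ≤ m0F thQ P) : ∏ i ∈ B, prm i ≤ Y0F thQ P := by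
  have hP3 := hC.P3
  have hP0 : 0 < P := by linarith
  have hl : 0 < Real.log P := Real.log_pos (by linarith)
  have hm0 : (m0F thQ P : ℝ) * Real.log P ≤ thQ / 16 * P := by
    have h1 : (m0F thQ P : ℝ) ≤ thQ / 16 * P / Real.log P := Nat.floor_le (by positivity)
    rwa [le_div_iff₀ hl] at h1
  unfold Y0F
  apply Nat.le_floor
  push_cast
  have h1 : ∏ i ∈ B, (prm i : ℝ) ≤ ∏ i ∈ B, P ^ (2 - g) :=
    Finset.prod_le_prod (fun i _ => Nat.cast_nonneg _) fun i _ => hprm i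
  refine h1.trans ?_
  rw [Finset.prod_const, Real.rpow_def_of_pos hP0, ← Real.exp_nat_mul, Real.exp_le_exp]
  have h2 : (B.card : ℝ) ≤ m0F thQ P := by exact_mod_cast hB
  have h3 : (B.card : ℝ) * Real.log P ≤ thQ / 16 * P :=
    (mul_le_mul_of_nonneg_right h2 hl.le).trans hm0
  have h4 : 0 ≤ (B.card : ℝ) * Real.log P * g :=
    mul_nonneg (mul_nonneg (Nat.cast_nonneg _) hl.le) hg.le
  have h5 : (B.card : ℝ) * (Real.log P * (2 - g)) =
      2 * ((B.card : ℝ) * Real.log P) - (B.card : ℝ) * Real.log P * g := by ring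
  rw [h5]
  linarith

theorem low_num_aux (hc : 0 < c) (hg : 0 < g) (hg1 : g ≤ 1) (ht : 0 < thQ) (ht1 : thQ ≤ 1 / 16)
    (hκ1 : κ ≤ thQ * g / 512) (hκ2 : κ ≤ c * thQ / 16) (hκ3 : κ ≤ 1 / 4)
    (hκ0 : 4 * κ ≤ κ0) (hC : CondL c g thQ κ κ0 qB P)
    (hN1 : Real.exp ((1 - κ) * P) ≤ N') (hN : N' ≤ 1000 * h0) (hq1 : 1 ≤ q1)
    (hq1B : q1 ≤ qB) (hqn : 1 ≤ qn) (hqnB : qn ≤ qB) : NumL c g thQ κ κ0 P N' h0 q1 qn := by
  have hP3 := hC.P3
  have hP0 : 0 < P := by linarith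
  have htP : 0 < thQ * P := by positivity
  have hNr : (N' : ℝ) ≤ 1000 * h0 := by exact_mod_cast hN
  have hqB1 : 1 ≤ qB := hq1.trans hq1B
  have hqBr : (1 : ℝ) ≤ qB := by exact_mod_cast hqB1
  have hthP : thQ * P ≤ P / 16 := by
    have := mul_le_mul_of_nonneg_right ht1 hP0.le
    linarith
  have hκP : κ * P ≤ P / 4 := by
    have := mul_le_mul_of_nonneg_right hκ3 hP0.le
    linarith
  have hM0le : (M0F thQ P : ℝ) ≤ Real.exp (thQ * P / 2) := Nat.floor_le (Real.exp_pos _).le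
  have hY0le : (Y0F thQ P : ℝ) ≤ Real.exp (thQ * P / 8) := Nat.floor_le (Real.exp_pos _).le
  have hQle : (⌊Real.exp (thQ * P)⌋₊ : ℝ) ≤ Real.exp (thQ * P) := Nat.floor_le (Real.exp_pos _).le
  have hqBe : (qB : ℝ) = Real.exp (Real.log qB) := (Real.exp_log (by linarith)).symm
  refine ⟨hP3, ?_, ?_, ?_, ?_, ?_, ?_, ?_, ?_, ?_, ?_, ?_, ?_, ?_⟩
  · -- N110
    have h1 : (110 : ℝ) ≤ N' := by
      refine le_trans ?_ hN1
      have h2 : (110 : ℝ) = Real.exp (Real.log 110) := (Real.exp_log (by norm_num)).symm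
      rw [h2, Real.exp_le_exp]
      have := hC.f1
      linarith
    exact_mod_cast h1
  · -- Q1
    rw [Nat.one_le_floor_iff]
    exact Real.one_le_exp htP.le
  · -- QN
    have h1 : ((⌊Real.exp (thQ * P)⌋₊ : ℝ)) ^ 4 ≤ N' := by
      refine (pow_le_pow_left₀ (Nat.cast_nonneg _) hQle 4).trans (le_trans ?_ hN1)
      rw [← Real.exp_nat_mul, Real.exp_le_exp]
      push_cast
      linarith
    exact_mod_cast h1
  · -- M01
    unfold M0F
    rw [Nat.one_le_floor_iff]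
    exact Real.one_le_exp (by positivity)
  · -- q1le
    have h1 : (q1 : ℝ) ≤ qB := by exact_mod_cast hq1B
    refine h1.trans ?_
    rw [hqBe, Real.exp_le_exp]
    exact hC.e2
  · exact Real.one_le_rpow (by linarith) (by positivity)
  · positivity
  · exact fun prm hprm B hB => hm_aux hC hg ht prm hprm B hB
  · -- YN
    have h1 : (Y0F thQ P : ℝ) ≤ N' := by
      refine hY0le.trans (le_trans ?_ hN1)
      rw [Real.exp_le_exp]
      linarith
    exact_mod_cast h1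
  · -- hQ
    apply Nat.le_floor
    push_cast
    have h1 : (qn : ℝ) ≤ Real.exp (3 / 8 * thQ * P) := by
      have h2 : (qn : ℝ) ≤ qB := by exact_mod_cast hqnB
      refine h2.trans ?_
      rw [hqBe, Real.exp_le_exp]
      exact hC.e1
    calc (Y0F thQ P : ℝ) * M0F thQ P * qn
        ≤ Real.exp (thQ * P / 8) * Real.exp (thQ * P / 2) * Real.exp (3 / 8 * thQ * P) := by
          gcongr
      _ = Real.exp (thQ * P) := by
          rw [← Real.exp_add, ← Real.exp_add]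
          congr 1
          ring
  · exact herr_aux hc hg hg1 ht hκ1 hκ2 hC hNr hqn hqnB
  · exact hlow_aux hκ0 hC hNr hqn hqnB
  · exact hsq_aux hκ0 hC

end

/-- **all numbers of the integer side** -/
theorem low_num (c g thQ : ℝ) (hc : 0 < c) (hg : 0 < g) (hg1 : g ≤ 1) (ht : 0 < thQ)
    (ht1 : thQ ≤ 1 / 16) : ∃ κs : ℝ, 0 < κs ∧ κs ≤ 1 / 4 ∧ ∀ κ : ℝ, 0 < κ → κ ≤ κs →
    ∀ κ0 : ℝ, 4 * κ ≤ κ0 → ∀ qB : ℕ,
    ∃ P0 : ℝ, ∀ P : ℝ, P0 ≤ P → ∀ N' h0 q1 qn : ℕ, Real.exp ((1 - κ) * P) ≤ N' →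
      N' ≤ 1000 * h0 → 1 ≤ q1 → q1 ≤ qB → 1 ≤ qn → qn ≤ qB →
      NumL c g thQ κ κ0 P N' h0 q1 qn := by
  refine ⟨min (min (thQ * g / 512) (c * thQ / 16)) (1 / 4), ?_, min_le_right _ _, ?_⟩
  · exact lt_min (lt_min (by positivity) (by positivity)) (by norm_num)
  intro κ hκ hκs κ0 hκ0 qB
  obtain ⟨P0, hP0⟩ := condL_ev c g thQ κ κ0 qB hc hg ht hκ (by linarith)
  refine ⟨P0, fun P hP N' h0 q1 qn hN1 hN hq1 hq1B hqn hqnB => ?_⟩
  exact low_num_aux hc hg hg1 ht ht1 (hκs.trans ((min_le_left _ _).trans (min_le_left _ _)))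
    (hκs.trans ((min_le_left _ _).trans (min_le_right _ _))) (hκs.trans (min_le_right _ _)) hκ0
    (hP0 P hP) hN1 hN hq1 hq1B hqn hqnB

end Vale.Agent.P042.H387
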