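import Vale.Agent.P042.H387.Top
import Vale.Agent.P042.H972.StAll

set_option autoImplicit false

/-!
P042, power version: the state theorem `StateF` holds; the power saving follows from the local
theorem alone.
-/

namespace Vale.Agent.P042.H387

open Vale.Agent.P042.H739

/-- **the state theorem** -/
theorem stateF_holds : StateF := fun par fam h1 h2 => H972.stateF par fam h1 h2

/-- **power saving from the local theorem** -/
theorem final6_loc (hLoc : LocF) : Final6 := final6_F stateF_holds hLoc

end Vale.Agent.P042.H387
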